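import Vale.Agent.P095.Link

/-!
Anticommuting central sequences up to elements which are uniformly small on tracial states.
-/

noncomputable section

open Filter Topology
open scoped BoundedContinuousFunction

namespace Vale.Agent.P095.Amenable

open Vale.Agent.P101 (Full Copies HasNil CQ centralAlg proj)
open Vale.Agent.P101.CombineN (IsOrderZero supp)

universe u

/-- Without characters there are almost anticommuting central sequences. -/
theorem exists_central_pair {A : Type u} [CStarAlgebra A]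
    [TopologicalSpace.SeparableSpace A] (ω : Ultrafilter ℕ) (hω : (ω : Filter ℕ) ≤ cofinite)
    (h : IsEmpty (P101.CentralChar ω A)) {δ : ℝ} (hδ : 0 < δ) :
    ∃ a b : ↥(centralAlg ω A),
      (∀ n, IsSelfAdjoint ((a : ℕ →ᵇ A) n) ∧ ‖(a : ℕ →ᵇ A) n‖ ≤ 1) ∧
      (∀ n, IsSelfAdjoint ((b : ℕ →ᵇ A) n) ∧ ‖(b : ℕ →ᵇ A) n‖ ≤ 1) ∧
      ∀ᶠ n in (ω : Filter ℕ), Small {σ | IsTr σ} ((a * a - 1 : ↥(centralAlg ω A)).1 n) δ ∧
        Small {σ | IsTr σ} ((b * b - 1 : ↥(centralAlg ω A)).1 n) δ ∧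
        Small {σ | IsTr σ} ((a * b + b * a : ↥(centralAlg ω A)).1 n) δ := by
  set T : Set (A →ₗ[ℂ] ℂ) := {σ | IsTr σ}
  have hT : ∀ τ ∈ T, IsTr τ := fun τ hτ => hτ
  obtain ⟨G₀, hG₀⟩ := P101.exists_finite_witness (show Full {x : CQ ω A | ∃ a b, a * b - b * a = x} by
    by_contra hn
    exact (P101.isEmpty_char h).false (P101.exists_char_of_not_full hn).some)
  obtain ⟨S₁, hS₁, hGS, ⟨c₁⟩⟩ := P101.exists_copies hω G₀
  obtain ⟨n1, k1⟩ := P101.stage1_ok S₁ (hG₀ S₁ hGS)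
  obtain ⟨B1, _, ⟨d1⟩, ⟨e1⟩⟩ := P101.regroup_ok S₁ (CQ ω A) n1 c₁
  obtain ⟨n2, k2⟩ := P101.stage2_ok B1 (k1 B1 d1)
  obtain ⟨B2, _, ⟨d2⟩, ⟨e2⟩⟩ := P101.regroup_ok B1 (CQ ω A) n2 e1
  obtain ⟨n3, k3⟩ := P101.stage3_ok B2 (k2 B2 d2)
  obtain ⟨B3, _, ⟨d3⟩, ⟨e3⟩⟩ := P101.regroup_ok B2 (CQ ω A) n3 e2
  obtain ⟨x₀, hx₀, hx₀f⟩ := k3 B3 d3
  obtain ⟨k, hk⟩ := pow_unbounded_of_one_lt (2 / δ ^ 2) (one_lt_two (α := ℝ))
  obtain ⟨B4, _, ⟨d4⟩, ⟨e4⟩⟩ := P101.regroup_ok B3 (CQ ω A) (k + 1) e3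
  obtain ⟨M, E, z₀, hM, hE, hEs, hEf, -⟩ := Link.exists_family d4 hx₀ hx₀f (k + 1) le_rfl
  rw [pow_succ] at hM
  subst hM
  obtain ⟨m, hm⟩ := P101.Stage4.stage4N.{u, u} hE hEs hEf P101.colour_ok
  obtain ⟨G, v, hG, hs, hr, hv, hfix⟩ := hm (CQ ω A)
    ⟨fun i => e4.hom i.1, fun i j hij => e4.comm _ _ fun e => hij (Fin.ext e)⟩
  obtain ⟨x, y, hxs, hys, hxn, hyn, hxy, hxx, hyy⟩ := Link.exists_pair ω hG hs hr hv
  obtain ⟨a, ha, ha'⟩ := Link.exists_rep_sa ω hxs hxn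
  obtain ⟨b, hb, hb'⟩ := Link.exists_rep_sa ω hys hyn
  let := CStarAlgebra.spectralOrder (CQ ω A)
  have := CStarAlgebra.spectralOrderedRing (CQ ω A)
  have hsmall : ∀ (w : CQ ω A), IsSelfAdjoint w → w * w = supp G * supp G →
      ∀ t : ℕ → A →ₗ[ℂ] ℂ, (∀ n, t n ∈ T) →
        Link.qTr ω t (star (w * w - 1) * (w * w - 1)) < δ ^ 2 := by
    intro w hw hww t ht
    have ht' : ∀ n, IsTr (t n) := fun n => hT _ (ht n)
    have h2 := Link.pair_of_relations (Link.qTr ω t) (fun f => Link.qTr_sum ω t ht' f) (Link.qTr_sub ω t ht')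
      (Link.qTr_one ω t ht') (Link.qTr_comm ω t ht') (Link.qTr_nonneg ω t ht') hG hs hr hv hfix
    have e : star (w * w - 1) * (w * w - 1) =
        (1 - supp G * supp G) * (1 - supp G * supp G) := by
      rw [star_sub, star_mul, hw.star_eq, star_one, hww]; noncomm_ring
    rw [e]
    push_cast at h2
    have hd : 0 < δ ^ 2 := pow_pos hδ 2
    rw [div_lt_iff₀ hd] at hk
    have hp : (0 : ℝ) < 2 ^ k := by positivity
    by_contra hge
    nlinarith [not_lt.1 hge]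
  have hA : ∀ᶠ n in (ω : Filter ℕ), Small T ((a * a - 1 : ↥(centralAlg ω A)).1 n) δ :=
    Link.eventually_small ω hT _ hδ.le fun t ht => by
      simpa [ha] using hsmall x hxs hxx t ht
  have hB' : ∀ᶠ n in (ω : Filter ℕ), Small T ((b * b - 1 : ↥(centralAlg ω A)).1 n) δ :=
    Link.eventually_small ω hT _ hδ.le fun t ht => by
      simpa [hb] using hsmall y hys hyy t ht
  have hAB : ∀ᶠ n in (ω : Filter ℕ), Small T ((a * b + b * a : ↥(centralAlg ω A)).1 n) δ :=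
    Link.eventually_small ω hT _ hδ.le fun t ht => by
      have hz : proj ω (a * b + b * a) = 0 := by simp [ha, hb, hxy]
      rw [hz, star_zero, zero_mul]
      have := Link.qTr_sub ω t (fun n => hT _ (ht n)) 0 0
      rw [sub_zero, sub_self] at this
      rw [this]
      exact pow_pos hδ 2
  exact ⟨a, b, ha', hb', hA.and (hB'.and hAB)⟩

end Vale.Agent.P095.Amenable
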