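import Vale.Agent.P095.Link
import Vale.Agent.P095.Finite.Action

/-!
Limit traces on the central sequence algebra.
-/

noncomputable section

open Filter Topology
open scoped BoundedContinuousFunction

namespace Vale.Agent.P095.Amenable

open Vale.Agent.P101

universe u v

variable {A : Type u} [CStarAlgebra A] (ω : Ultrafilter ℕ)

/-- The limit traces on the central sequence algebra. -/
def limTraces (A : Type u) [CStarAlgebra A] : Set (CQ ω A →ₗ[ℂ] ℂ) :=
  {τ | ∃ t : ℕ → A →ₗ[ℂ] ℂ, (∀ n, IsTr (t n)) ∧ ∀ a : ↥(centralAlg ω A),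
    Tendsto (fun n => t n ((a : ℕ →ᵇ A) n)) (ω : Filter ℕ) (𝓝 (τ (proj ω a)))}

/-- Every sequence of tracial states has a limit trace. -/
lemma exists_limTrace (t : ℕ → A →ₗ[ℂ] ℂ) (ht : ∀ n, IsTr (t n)) :
    ∃ τ ∈ limTraces ω A, ∀ a : ↥(centralAlg ω A),
      Tendsto (fun n => t n ((a : ℕ →ᵇ A) n)) (ω : Filter ℕ) (𝓝 (τ (proj ω a))) := by
  have hex : ∀ a : ℕ →ᵇ A, ∃ z, Tendsto (fun n => t n (a n)) (ω : Filter ℕ) (𝓝 z) := fun a => by
    obtain ⟨z, -, hz⟩ := (isCompact_closedBall (0 : ℂ) ‖a‖).ultrafilter_le_nhds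
      (ω.map fun n => t n (a n)) (by
        rw [le_principal_iff, Ultrafilter.coe_map, mem_map]
        exact Filter.univ_mem' fun n => mem_closedBall_zero_iff.2
          (((ht n).norm_map_le _).trans (a.norm_coe_le_norm n)))
    exact ⟨z, hz⟩
  choose z hz using hex
  let l : CQ ω A → ↥(centralAlg ω A) := Function.surjInv (proj_surjective ω)
  have hl : ∀ a : ↥(centralAlg ω A), z (l (proj ω a) : ↥(centralAlg ω A)) = z a := fun a => by
    refine tendsto_nhds_unique (hz _) ?_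
    have hn := (proj_eq_iff ω (l (proj ω a)) a).1 (Function.surjInv_eq (proj_surjective ω) _)
    have h0 : Tendsto (fun n => t n (((l (proj ω a) : ↥(centralAlg ω A)) : ℕ →ᵇ A) n
        - (a : ℕ →ᵇ A) n)) (ω : Filter ℕ) (𝓝 0) :=
      squeeze_zero_norm (fun n => (ht n).norm_map_le _) hn
    simpa using h0.add (hz (a : ℕ →ᵇ A))
  let τ : CQ ω A →ₗ[ℂ] ℂ :=
    { toFun := fun x => z (l x : ↥(centralAlg ω A))
      map_add' := fun x y => by
        obtain ⟨a, rfl⟩ := proj_surjective ω x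
        obtain ⟨b, rfl⟩ := proj_surjective ω y
        rw [← map_add, hl, hl, hl]
        exact tendsto_nhds_unique (hz _) (((hz _).add (hz _)).congr fun n => by simp)
      map_smul' := fun c x => by
        obtain ⟨a, rfl⟩ := proj_surjective ω x
        rw [RingHom.id_apply, ← map_smul, hl, hl]
        exact tendsto_nhds_unique (hz _) (((hz _).const_mul c).congr fun n => by simp) }
  have hτ : ∀ a : ↥(centralAlg ω A),
      Tendsto (fun n => t n ((a : ℕ →ᵇ A) n)) (ω : Filter ℕ) (𝓝 (τ (proj ω a))) := fun a => by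
    show Tendsto _ _ (𝓝 (z (l (proj ω a) : ↥(centralAlg ω A))))
    rw [hl]
    exact hz _
  exact ⟨τ, ⟨t, ht, hτ⟩, hτ⟩

/-- Limit traces are tracial states. -/
lemma isTr_limTrace {τ : CQ ω A →ₗ[ℂ] ℂ} (h : τ ∈ limTraces ω A) : IsTr τ := by
  obtain ⟨t, ht, hτ⟩ := h
  refine ⟨?_, fun x y => ?_, fun x => ?_⟩
  · rw [← map_one (proj ω (A := A))]
    exact tendsto_nhds_unique (hτ 1) (tendsto_const_nhds.congr fun n => by simp [(ht n).map_one])
  · obtain ⟨a, rfl⟩ := proj_surjective ω x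
    obtain ⟨b, rfl⟩ := proj_surjective ω y
    rw [← map_mul, ← map_mul]
    exact tendsto_nhds_unique (hτ (a * b)) ((hτ (b * a)).congr fun n => by simp [(ht n).comm])
  · obtain ⟨a, rfl⟩ := proj_surjective ω x
    rw [← map_star, ← map_mul]
    have h1 := hτ (star a * a)
    have him : ∀ n, (t n (((star a * a : ↥(centralAlg ω A)) : ℕ →ᵇ A) n)).im = 0 ∧
        0 ≤ (t n (((star a * a : ↥(centralAlg ω A)) : ℕ →ᵇ A) n)).re := fun n => by
      obtain ⟨r, hr, e⟩ := (ht n).pos ((a : ℕ →ᵇ A) n)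
      have : t n (((star a * a : ↥(centralAlg ω A)) : ℕ →ᵇ A) n) = (r : ℂ) := e
      rw [this]
      simp [hr]
    refine ⟨(τ (proj ω (star a * a))).re, ?_, Complex.ext (by simp) ?_⟩
    · exact ge_of_tendsto' ((Complex.continuous_re.tendsto _).comp h1) fun n => (him n).2
    · rw [Complex.ofReal_im]
      exact tendsto_nhds_unique ((Complex.continuous_im.tendsto _).comp h1)
        (tendsto_const_nhds.congr fun n => (him n).1.symm)

/-- The two-norm of a limit trace is the limit of the two-norms. -/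
lemma limTrace_le {τ : CQ ω A →ₗ[ℂ] ℂ} (h : τ ∈ limTraces ω A) (d : ↥(centralAlg ω A)) {δ : ℝ}
    (hd : ∀ᶠ n in (ω : Filter ℕ), Small {σ | IsTr σ} ((d : ℕ →ᵇ A) n) δ) :
    (τ (star (proj ω d) * proj ω d)).re ≤ δ ^ 2 := by
  obtain ⟨t, ht, hτ⟩ := h
  rw [← map_star, ← map_mul]
  refine le_of_tendsto ((Complex.continuous_re.tendsto _).comp (hτ (star d * d))) (hd.mono ?_)
  intro n hn
  have h2 := pow_le_pow_left₀ (sn_nonneg _) (hn (t n) (ht n)) 2
  rw [(ht n).sq_sn] at h2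
  simpa using h2

/-- Smallness for all limit traces gives smallness of representatives. -/
lemma eventually_of_limTraces (d : ↥(centralAlg ω A)) {δ : ℝ} (hδ : 0 ≤ δ)
    (h : Small (limTraces ω A) (proj ω d) δ) {δ' : ℝ} (hδ' : δ < δ') :
    ∀ᶠ n in (ω : Filter ℕ), Small {σ | IsTr σ} ((d : ℕ →ᵇ A) n) δ' := by
  refine Link.eventually_small ω (fun τ hτ => hτ) d (hδ.trans hδ'.le) fun t ht => ?_
  obtain ⟨τ, hτm, hτ⟩ := exists_limTrace ω t ht
  have h1 : Link.qTr ω t (star (proj ω d) * proj ω d) = (τ (star (proj ω d) * proj ω d)).re := by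
    rw [← map_star, ← map_mul]
    exact tendsto_nhds_unique (Link.tendsto_qTr ω t ht (star d * d))
      ((Complex.continuous_re.tendsto _).comp (hτ (star d * d)))
  rw [h1, ← (isTr_limTrace ω hτm).sq_sn]
  exact (pow_le_pow_left₀ (sn_nonneg _) (h τ hτm) 2).trans_lt
    (pow_lt_pow_left₀ hδ' hδ two_ne_zero)

/-- The set of limit traces is invariant under the induced action. -/
lemma limTraces_inv {G : Type v} [Group G] (α : G → A ≃⋆ₐ[ℂ] A)
    (hα : ∀ g h x, α (g * h) x = α g (α h x)) :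
    ∀ τ ∈ limTraces ω A, ∀ g, ∃ σ ∈ limTraces ω A,
      ∀ x, σ x = τ (Finite.actCQ ω α hα g x) := by
  rintro τ ⟨t, ht, hτ⟩ g
  let σ : CQ ω A →ₗ[ℂ] ℂ :=
    τ.comp (Finite.actCQ ω α hα g : CQ ω A →⋆ₐ[ℂ] CQ ω A).toLinearMap
  let t' : ℕ → A →ₗ[ℂ] ℂ := fun n => (t n).comp (α g : A →⋆ₐ[ℂ] A).toLinearMap
  have ht' : ∀ n, IsTr (t' n) := fun n => by
    refine ⟨?_, fun x y => ?_, fun x => ?_⟩
    · simp [t', (ht n).map_one]
    · simp [t', (ht n).comm]
    · obtain ⟨r, hr, e⟩ := (ht n).pos (α g x)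
      exact ⟨r, hr, by simpa [t', map_star] using e⟩
  refine ⟨σ, ⟨t', ht', fun a => ?_⟩, fun x => rfl⟩
  show Tendsto _ _ (𝓝 (τ (Finite.actHom ω (α g) (proj ω a))))
  rw [Finite.actHom_proj]
  exact (hτ (Finite.centralAct ω (α g) a)).congr fun n => rfl

end Vale.Agent.P095.Amenable
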